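import Vale.Agent.P352R.Ct.Df
import Vale.Agent.P352.H746.Flow2
import Vale.Agent.P352X.Api2b
import Vale.Agent.P352X.CL.Pub0

/-!
# P352R, block Ct: one parameter groups of similitudes acting on the fields (helper72)
-/

set_option autoImplicit false
set_option linter.all false

open Filter Topology
open scoped SchwartzMap

noncomputable section

namespace Vale.Agent.P352R.Ct

open Vale.Agent.P352 Vale.Agent.P352.GF Vale.Agent.P352.H15 Vale.Agent.P352.H746
open Vale.Agent.P352.H246 Vale.Agent.P352.H496 Vale.Agent.P352X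

variable {D : Type*} [NormedAddCommGroup D] [InnerProductSpace ℂ D] {Q : Theory D}
  {A : (V → V) → D → D} {B C : Fld D}

/-- vector valued functions of a test function -/
abbrev Wv (D : Type*) := {f : Fn // GF.IsTest f} → D

/-- the vectors made by a field from the vacuum -/
def rs (Q : Theory D) : Fld D →ₗ[ℂ] Wv D where
  toFun B f := B f.1 Q.vac
  map_add' _ _ := rfl
  map_smul' _ _ := rfl

/-- the action of a similitude -/
def ac (Q : Theory D) {s : ℝ} {L : Ix → V} (hs : 0 < s) (hL : IsLor L) : Wv D →ₗ[ℂ] Wv D where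
  toFun ψ f := Q.U s L 0 (ψ ⟨fun x => f.1 (sim s L 0 x), Ap.test_sim hs hL 0 f.2⟩)
  map_add' _ _ := funext fun _ => U_add hs hL 0 _ _
  map_smul' c _ := funext fun _ => U_smul hs hL 0 c _

/-- the matrix elements -/
def La (D : Type*) [NormedAddCommGroup D] [InnerProductSpace ℂ D] : Set (Wv D →ₗ[ℂ] ℂ) :=
  {l | ∃ w f, ∀ ψ, l ψ = inner ℂ w (ψ f)}

theorem ac_rs {s : ℝ} {L : Ix → V} (hs : 0 < s) (hL : IsLor L) (h : ∀ f v, GF.IsTest f →
    Q.U s L 0 (B (fun x => f (sim s L 0 x)) v) = C f (Q.U s L 0 v)) :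
    ac Q hs hL (rs Q B) = rs Q C :=
  funext fun f => (h f.1 Q.vac f.2).trans (by rw [Q.U_vac s L 0 hs hL]; rfl)

theorem sim_sim (s s' : ℝ) (L L' : Ix → V) (x : V) :
    sim s L 0 (sim s' L' 0 x) = sim (s * s') (fun m => sim 1 L 0 (L' m)) 0 x := by
  funext n
  simp only [sim, Pi.zero_apply, zero_add, one_mul, Finset.mul_sum, Finset.sum_mul]
  rw [Finset.sum_comm]
  exact Finset.sum_congr rfl fun _ _ => Finset.sum_congr rfl fun _ _ => by ring

theorem ac_mul (R : Rep Q A) {s s' t : ℝ} {L L' M : Ix → V} (hs : 0 < s) (hL : IsLor L)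
    (hs' : 0 < s') (hL' : IsLor L') (ht : 0 < t) (hM : IsLor M) (e : t = s * s')
    (e' : M = fun m => sim 1 L 0 (L' m)) (ψ : Wv D) :
    ac Q ht hM ψ = ac Q hs hL (ac Q hs' hL' ψ) := by
  subst e e'
  funext f
  refine Eq.trans ?_ (R.mul s L 0 s' L' 0 _ hs hs' hL hL').symm
  have : sim s L 0 0 = 0 := funext fun n => by simp [sim]
  simp only [this, sim_sim]
  rfl

variable {s : ℝ → ℝ} {L : ℝ → Ix → V} {w : Ix → V} {r : ℝ}

theorem cont0 (R : Rep Q A) (K : Crv s L (fun _ => 0) w r 0) (hB : Q.fld B) (f) :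
    Tendsto (fun e => ac Q (K.sp e) (K.lor e) (rs Q B) f) (𝓝 0) (𝓝 (rs Q B f)) := by
  obtain ⟨f, hf⟩ := f
  obtain ⟨F, rfl⟩ := exists_fl hf
  have h1 : Tendsto (K.cs F) (𝓝 0) (𝓝 F) := by
    rw [← nhdsNE_sup_pure, tendsto_sup]
    refine ⟨?_, by simpa only [K.cs_zero] using tendsto_pure_nhds (K.cs F) 0⟩
    have := ((tendsto_id.mono_left (nhdsWithin_le_nhds (s := {0}ᶜ))).smul (K.tend F)).add_const F
    rw [zero_smul, zero_add] at this
    refine this.congr' (eventually_nhdsWithin_of_forall fun e he => ?_)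
    rw [id, smul_inv_smul₀ he, sub_add_cancel]
  have h2 := (((fld_cont hB Q.vac).tendsto F).comp h1).sub_const (B (fl F) Q.vac)
  have h3 := (der_U0 R K (fun _ _ => rfl) (B (fl F) Q.vac)).continuousAt.tendsto
  rw [U_at0 K] at h3
  rw [sub_self, tendsto_zero_iff_norm_tendsto_zero] at h2
  have h4 : Tendsto (fun e => Q.U (s e) (L e) 0 (B (fl (K.cs F e)) Q.vac - B (fl F) Q.vac))
      (𝓝 0) (𝓝 0) := tendsto_zero_iff_norm_tendsto_zero.2
    (h2.congr fun e => (U_nrm0 (K.sp e) (K.lor e) 0 _).symm)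
  have h5 := h4.add h3
  rw [zero_add] at h5
  refine h5.congr fun e => ?_
  rw [H746.U_sub' (K.sp e) (K.lor e), sub_add_cancel, Crv.cs, ← fl_sim]
  rfl

/-- **the orbit of a field under a one parameter group** -/
theorem orb (R : Rep Q A) (K : Crv s L (fun _ => 0) w r 0) (m : ∀ t t', s (t + t') = s t * s t' ∧
    L (t + t') = fun m => sim 1 (L t) 0 (L t' m)) (hB : Q.fld B) :
    Orb (fun t => ac Q (K.sp t) (K.lor t)) (La D) (rs Q B) := by
  have ad := fun t t' => ac_mul R (K.sp t) (K.lor t) (K.sp t') (K.lor t') (K.sp _) (K.lor _)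
    (m t t').1 (m t t').2
  refine ⟨fun ψ => funext fun f => (U_at0 K _).trans (congrArg ψ (Subtype.ext (funext fun x => ?_))),
    ad, fun ψ h => funext fun f => ext_inner_left ℂ fun v => ?_, ?_⟩
  · refine congrArg f.1 (funext fun n => ?_)
    simp [K.s0, K.L0, sim, GF.one, bas]
  · exact (h ((innerₛₗ ℂ v).comp (LinearMap.proj f)) ⟨v, f, fun _ => rfl⟩).trans
      (inner_zero_right _).symm
  rintro l ⟨v, f, e⟩
  simp only [e]
  refine continuous_const.inner (continuous_iff_continuousAt.2 fun t => ?_)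
  let u : D →ₗᵢ[ℂ] D := ⟨⟨⟨Q.U (s t) (L t) 0, U_add (K.sp t) (K.lor t) 0⟩,
    U_smul (K.sp t) (K.lor t) 0⟩, U_nrm0 (K.sp t) (K.lor t) 0⟩
  have h := (u.continuous.tendsto _).comp ((cont0 R K hB ⟨_, Ap.test_sim (K.sp t) (K.lor t) 0 f.2⟩).comp
    (show Tendsto (fun e => e - t) (𝓝 t) (𝓝 0) from tendsto_sub_nhds_zero_iff.2 tendsto_id))
  refine h.congr fun e => ?_
  have := congrFun (ad t (e - t) (rs Q B)) f
  simp only [add_sub_cancel] at this
  exact this.symm

end Vale.Agent.P352R.Ct
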