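import Vale.Agent.P352R.Ct.Df

/-!
# P352R, block Ct, row GEN: a continuous one parameter group is differentiable
-/

set_option autoImplicit false
set_option linter.all false

namespace Vale.Agent.P352R.Ct

open Filter Topology

theorem gen_aux {A : Type*} [NormedRing A] [NormedAlgebra ℝ A] [CompleteSpace A] (M : ℝ → A)
    (h0 : M 0 = 1) (ha : ∀ s t, M (s + t) = M s * M t) (hc : Continuous M) :
    ∃ G : A, ∀ t, HasDerivAt M (M t * G) t := by
  let F : ℝ → A := fun t => ∫ s in (0 : ℝ)..t, M s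
  have hF : ∀ t, HasDerivAt F (M t) t := fun t =>
    intervalIntegral.integral_hasDerivAt_right (hc.intervalIntegrable _ _)
      (hc.stronglyMeasurableAtFilter _ _) hc.continuousAt
  have hF0 : F 0 = 0 := intervalIntegral.integral_same
  have h1 : Tendsto (fun t : ℝ => t⁻¹ • (F (0 + t) - F 0)) (𝓝[≠] 0) (𝓝 (1 : A)) := by
    have := hasDerivAt_iff_tendsto_slope_zero.mp (hF 0)
    rwa [h0] at this
  have h2 : ∀ᶠ t : ℝ in 𝓝[≠] 0, IsUnit (t⁻¹ • (F (0 + t) - F 0)) :=
    h1.eventually (Units.isOpen.mem_nhds isUnit_one)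
  obtain ⟨e, he, he0⟩ := (h2.and self_mem_nhdsWithin).exists
  have he0' : e ≠ 0 := he0
  rw [zero_add, hF0, sub_zero] at he
  obtain ⟨u, hu⟩ := he
  let v : A := e⁻¹ • (↑u⁻¹ : A)
  have hv : F e * v = 1 := by
    have : F e * v = (e⁻¹ • F e) * (↑u⁻¹ : A) := by
      simp only [v, mul_smul_comm, smul_mul_assoc]
    rw [this, ← hu, Units.mul_inv]
  have hm : ∀ t, M t * F e = F (t + e) - F t := by
    intro t
    have a1 : M t * F e = ∫ s in (0 : ℝ)..e, M t * M s :=
      ((ContinuousLinearMap.mul ℝ A (M t)).intervalIntegral_comp_comm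
        (hc.intervalIntegrable 0 e)).symm
    have a2 : (∫ s in (0 : ℝ)..e, M t * M s) = ∫ s in (0 : ℝ)..e, M (t + s) := by
      simp only [ha]
    have a3 : (∫ s in (0 : ℝ)..e, M (t + s)) = ∫ s in (t + 0)..(t + e), M s :=
      intervalIntegral.integral_comp_add_left M t
    rw [a1, a2, a3, add_zero]
    exact (intervalIntegral.integral_interval_sub_left (hc.intervalIntegrable _ _)
      (hc.intervalIntegrable _ _)).symm
  have hM : M = fun t => (F (t + e) - F t) * v := by
    funext t
    rw [← hm, mul_assoc, hv, mul_one]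
  refine ⟨(M e - 1) * v, fun t => ?_⟩
  have b1 : HasDerivAt (fun t => F (t + e)) (M (t + e)) t := (hF (t + e)).comp_add_const t e
  have b2 : HasDerivAt (fun t => (F (t + e) - F t) * v) ((M (t + e) - M t) * v) t :=
    (b1.sub (hF t)).mul_const v
  have b3 : M t * ((M e - 1) * v) = (M (t + e) - M t) * v := by
    rw [← mul_assoc, mul_sub, mul_one, ha]
  rw [b3]
  exact hM ▸ b2

/-- row GEN -/
theorem gen : GEN := fun _ M h0 ha hc => gen_aux M h0 ha hc

end Vale.Agent.P352R.Ct
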