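import Vale.Agent.P352R.Ct.Df

/-!
# P352R, block Ct: solutions of linear equations are exponential polynomials (helper14)
-/

set_option autoImplicit false
set_option linter.all false

open Polynomial

namespace Vale.Agent.P352R.Ct.Od

variable {E : Type*} [NormedAddCommGroup E] [NormedSpace ℂ E]

/-- exponential polynomials -/
inductive Ep : (ℝ → E) → Prop
  | one (m : ℂ) (j : ℕ) (c : E) : Ep fun t => (Complex.exp (t * m) * (t : ℂ) ^ j) • c
  | add {f g} : Ep f → Ep g → Ep fun t => f t + g t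

theorem Ep.of {f g : ℝ → E} (h : Ep f) (e : ∀ t, g t = f t) : Ep g := (funext e : g = f) ▸ h

theorem Ep.cst (c : E) : Ep fun _ : ℝ => c := (Ep.one 0 0 c).of fun t => by simp

theorem Ep.mul {f : ℝ → E} (h : Ep f) (l a : ℂ) : Ep fun t => (Complex.exp (t * l) * a) • f t := by
  induction h with
  | one m j c =>
    refine (Ep.one (l + m) j (a • c)).of fun t => ?_
    beta_reduce
    rw [smul_smul, smul_smul, mul_add, Complex.exp_add]; congr 1; ring
  | add _ _ a b => exact (a.add b).of fun t => smul_add _ _ _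

theorem dex (m : ℂ) (t : ℝ) :
    HasDerivAt (fun t : ℝ => Complex.exp (t * m)) (Complex.exp (t * m) * m) t := by
  simpa using ((hasDerivAt_id t).ofReal_comp.mul_const m).cexp

theorem dm (m : ℂ) (j : ℕ) (c : E) (t : ℝ) :
    HasDerivAt (fun t : ℝ => (Complex.exp (t * m) * (t : ℂ) ^ j) • c)
      ((Complex.exp (t * m) * m * (t : ℂ) ^ j + Complex.exp (t * m) * (j * (t : ℂ) ^ (j - 1))) • c)
      t := by
  simpa using ((dex m t).mul ((hasDerivAt_id t).ofReal_comp.pow j)).smul_const c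

theorem prim (m : ℂ) (j : ℕ) : ∀ c : E, ∃ g, Ep g ∧
    ∀ t : ℝ, HasDerivAt g ((Complex.exp (t * m) * (t : ℂ) ^ j) • c) t := by
  by_cases hm : m = 0
  · refine fun c => ⟨_, .one m (j + 1) (((j : ℂ) + 1)⁻¹ • c), fun t =>
      (dm m (j + 1) _ t).congr_deriv ?_⟩
    have := Nat.cast_add_one_ne_zero (R := ℂ) j
    rw [smul_smul, hm]; congr 1; push_cast; field_simp; ring
  induction j with
  | zero => exact fun c => ⟨_, .one m 0 (m⁻¹ • c), fun t => (dm m 0 _ t).congr_deriv (by
      rw [smul_smul]; congr 1; field_simp; simp)⟩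
  | succ j ih =>
    intro c
    obtain ⟨g, a, b⟩ := ih ((-((j : ℂ) + 1) * m⁻¹) • c)
    refine ⟨_, (Ep.one m (j + 1) (m⁻¹ • c)).add a, fun t =>
      ((dm m (j + 1) _ t).add (b t)).congr_deriv ?_⟩
    rw [smul_smul, smul_smul, ← add_smul]; congr 1; push_cast; field_simp; ring

theorem Ep.prim {f : ℝ → E} (h : Ep f) : ∃ g, Ep g ∧ ∀ t, HasDerivAt g (f t) t := by
  induction h with
  | one m j c => exact Od.prim m j c
  | add _ _ a b =>
    obtain ⟨g, a, a'⟩ := a
    obtain ⟨g', b, b'⟩ := b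
    exact ⟨_, a.add b, fun t => (a' t).add (b' t)⟩

theorem Ep.fin {f : ℝ → E} (h : Ep f) : ∃ c : ℂ × ℕ →₀ E,
    ∀ t : ℝ, f t = c.sum fun p x => (Complex.exp (t * p.1) * (t : ℂ) ^ p.2) • x := by
  induction h with
  | one m j c =>
    exact ⟨.single (m, j) c, fun t => (Finsupp.sum_single_index (a := (m, j)) (b := c)
      (h := fun (p : ℂ × ℕ) x => (Complex.exp (t * p.1) * (t : ℂ) ^ p.2) • x) (smul_zero _)).symm⟩
  | add _ _ a b =>
    obtain ⟨c, a⟩ := a
    obtain ⟨d, b⟩ := b
    exact ⟨c + d, fun t => by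
      rw [Finsupp.sum_add_index' (fun _ => smul_zero _) fun _ _ _ => smul_add _ _ _, ← a, ← b]⟩

theorem orb {M : ℝ → E →L[ℂ] E} {G : E →L[ℂ] E} (h : ∀ t, HasDerivAt M (M t * G) t) (n : ℕ) :
    ∀ p : ℂ[X], p.natDegree = n → p ≠ 0 → ∀ v, aeval G.toLinearMap p v = 0 →
      Ep fun t => M t v := by
  induction n with
  | zero =>
    intro p d n v e
    rw [eq_C_of_natDegree_eq_zero d] at e n
    have : v = 0 := by simpa [C_ne_zero.1 n] using e
    exact (Ep.cst 0).of fun t => by rw [this, map_zero]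
  | succ n ih =>
    intro p d n0 v e
    obtain ⟨l, hl⟩ := IsAlgClosed.exists_root p (fun k => by
      rw [natDegree_eq_zero_iff_degree_le_zero.2 k.le] at d; omega)
    obtain ⟨q, rfl⟩ := dvd_iff_isRoot.2 hl
    have q0 := right_ne_zero_of_mul n0
    rw [natDegree_mul (X_sub_C_ne_zero l) q0, natDegree_X_sub_C] at d
    rw [mul_comm, map_mul] at e
    obtain ⟨g, a, b⟩ := ((ih q (by omega) q0 (G v - l • v) (by simpa using e)).mul (-l) 1).prim
    have k : ∀ t : ℝ, HasDerivAt (fun t : ℝ => Complex.exp (t * -l) • M t v - g t) 0 t := fun t =>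
      (((dex (-l) t).smul ((ContinuousLinearMap.apply ℂ E v).restrictScalars ℝ
        |>.hasFDerivAt.comp_hasDerivAt t (h t))).sub (b t)).congr_deriv (by
          simp [smul_sub, smul_smul, sub_eq_add_neg])
    have c := is_const_of_deriv_eq_zero (fun t => (k t).differentiableAt) fun t => (k t).deriv
    refine ((a.add (.cst (Complex.exp ((0 : ℝ) * -l) • M 0 v - g 0))).mul l 1).of fun t => ?_
    rw [← c t 0, add_sub_cancel, smul_smul, mul_one, ← Complex.exp_add, mul_neg, add_neg_cancel,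
      Complex.exp_zero, one_smul]

end Vale.Agent.P352R.Ct.Od

namespace Vale.Agent.P352R.Ct

theorem ode1 : ODE := fun n M G _ h v => by
  obtain ⟨c, e⟩ := (Od.orb h _ _ rfl G.toLinearMap.charpoly_monic.ne_zero v (by
    rw [LinearMap.aeval_self_charpoly]; rfl)).fin
  exact ⟨c.support, c, e⟩

end Vale.Agent.P352R.Ct
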