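import Vale.Agent.P352R.Ct.Ep
import Vale.Agent.P352R.Ct.Gen
import Vale.Agent.P352R.Ct.Ode1

/-! # P352R, block Ct: the row `EP` with no hypothesis (helper14) -/

set_option autoImplicit false

namespace Vale.Agent.P352R.Ct

theorem ep_all (W : Type*) [AddCommGroup W] [Module ℂ W] : EP W := ep gen ode1 W

end Vale.Agent.P352R.Ct
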