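import Vale.Agent.P352R.Ct.Df

/-!
# P352R, block Ct: row FD (Baire category argument)
-/

set_option autoImplicit false
set_option linter.all false

namespace Vale.Agent.P352R.Ct

variable {W : Type*} [AddCommGroup W] [Module ℂ W]

/-- the span of a short piece of the orbit -/
def fdV (ρ : ℝ → W →ₗ[ℂ] W) (x : W) (δ : ℝ) : Submodule ℂ W :=
  Submodule.span ℂ ((fun t => ρ t x) '' {t : ℝ | |t| < δ})

theorem fdV_mono (ρ : ℝ → W →ₗ[ℂ] W) (x : W) {a b : ℝ} (h : a ≤ b) : fdV ρ x a ≤ fdV ρ x b :=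
  Submodule.span_mono (Set.image_mono fun t ht => lt_of_lt_of_le ht h)

theorem fd_closed {ρ : ℝ → W →ₗ[ℂ] W} {Λ : Set (W →ₗ[ℂ] ℂ)} {x : W} (O : Orb ρ Λ x)
    (U : Submodule ℂ W) [FiniteDimensional ℂ U] : IsClosed {t : ℝ | ρ t x ∈ U} := by
  let J : W →ₗ[ℂ] (Λ → ℂ) := LinearMap.pi fun l : Λ => (l : W →ₗ[ℂ] ℂ)
  have hJ : Function.Injective J := by
    rw [← LinearMap.ker_eq_bot, LinearMap.ker_eq_bot']
    intro y hy
    exact O.sep y fun l hl => congrFun hy ⟨l, hl⟩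
  have hc : Continuous fun t : ℝ => J (ρ t x) := continuous_pi fun l => O.cont l l.2
  have hU : IsClosed ((U.map J : Submodule ℂ (Λ → ℂ)) : Set (Λ → ℂ)) :=
    Submodule.closed_of_finiteDimensional _
  have he : {t : ℝ | ρ t x ∈ U} = (fun t : ℝ => J (ρ t x)) ⁻¹' (U.map J : Submodule ℂ (Λ → ℂ)) := by
    ext t
    constructor
    · intro ht
      exact Submodule.mem_map_of_mem ht
    · rintro ⟨y, hy, hyt⟩
      have : y = ρ t x := hJ hyt
      show ρ t x ∈ U
      exact this ▸ hy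
  rw [he]
  exact hU.preimage hc

theorem fd_local {ρ : ℝ → W →ₗ[ℂ] W} {Λ : Set (W →ₗ[ℂ] ℂ)} {x : W} {S : Set W} (O : Orb ρ Λ x)
    (hS : S.Countable) (h : ∀ t, ρ t x ∈ Submodule.span ℂ S) :
    ∃ δ : ℝ, 0 < δ ∧ FiniteDimensional ℂ (fdV ρ x δ) := by
  have hI : {F : Set W | F.Finite ∧ F ⊆ S}.Countable := Set.countable_setOf_finite_subset hS
  haveI : Countable {F : Set W | F.Finite ∧ F ⊆ S} := hI.to_subtype
  let E : {F : Set W | F.Finite ∧ F ⊆ S} → Set ℝ :=
    fun F => {t : ℝ | ρ t x ∈ Submodule.span ℂ (F : Set W)}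
  have hcl : ∀ F, IsClosed (E F) := by
    intro F
    haveI : FiniteDimensional ℂ (Submodule.span ℂ (F : Set W)) :=
      FiniteDimensional.span_of_finite ℂ F.2.1
    exact fd_closed O _
  have hcov : ⋃ F, E F = Set.univ := by
    refine Set.eq_univ_of_forall fun t => ?_
    obtain ⟨T, hT, ht⟩ := Submodule.mem_span_finite_of_mem_span (h t)
    exact Set.mem_iUnion.2 ⟨⟨(T : Set W), T.finite_toSet, hT⟩, ht⟩
  obtain ⟨F, a, ha⟩ := nonempty_interior_of_iUnion_of_closed hcl hcov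
  obtain ⟨δ, hδ, hb⟩ := Metric.mem_nhds_iff.1 (mem_interior_iff_mem_nhds.1 ha)
  refine ⟨δ, hδ, ?_⟩
  haveI : FiniteDimensional ℂ (Submodule.span ℂ (F : Set W)) :=
    FiniteDimensional.span_of_finite ℂ F.2.1
  have hle : fdV ρ x δ ≤ (Submodule.span ℂ (F : Set W)).map (ρ (-a)) := by
    refine Submodule.span_le.2 ?_
    rintro _ ⟨t, ht, rfl⟩
    have h1 : a + t ∈ E F := by
      apply hb
      rw [Metric.mem_ball, Real.dist_eq, add_sub_cancel_left]
      exact ht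
    refine ⟨ρ (a + t) x, h1, ?_⟩
    show ρ (-a) (ρ (a + t) x) = ρ t x
    rw [← O.add, neg_add_cancel_left]
  exact Submodule.finiteDimensional_of_le hle

theorem fd_stable {ρ : ℝ → W →ₗ[ℂ] W} {x : W} {δ : ℝ} (hδ : 0 < δ)
    (h : FiniteDimensional ℂ (fdV ρ x δ)) :
    ∃ ε : ℝ, 0 < ε ∧ FiniteDimensional ℂ (fdV ρ x ε) ∧ fdV ρ x (2 * ε) = fdV ρ x ε := by
  have key : ∀ (n : ℕ) (δ : ℝ), 0 < δ → FiniteDimensional ℂ (fdV ρ x δ) →
      Module.finrank ℂ (fdV ρ x δ) = n →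
      ∃ ε : ℝ, 0 < ε ∧ FiniteDimensional ℂ (fdV ρ x ε) ∧ fdV ρ x (2 * ε) = fdV ρ x ε := by
    intro n
    induction n using Nat.strong_induction_on with
    | _ n ih =>
      intro δ hδ hf hn
      have hle : fdV ρ x (δ / 2) ≤ fdV ρ x δ := fdV_mono ρ x (by linarith)
      have hf2 : FiniteDimensional ℂ (fdV ρ x (δ / 2)) := Submodule.finiteDimensional_of_le hle
      by_cases he : fdV ρ x (δ / 2) = fdV ρ x δ
      · refine ⟨δ / 2, by linarith, hf2, ?_⟩
        rw [he]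
        congr 1
        ring
      · have hlt : fdV ρ x (δ / 2) < fdV ρ x δ := lt_of_le_of_ne hle he
        have := Submodule.finrank_lt_finrank_of_lt hlt
        exact ih _ (hn ▸ this) (δ / 2) (by linarith) hf2 rfl
  exact key _ δ hδ h rfl

variable (W) in
theorem fd : FD W := by
  intro ρ Λ x S O hS h
  obtain ⟨δ, hδ, hf⟩ := fd_local O hS h
  obtain ⟨ε, hε, hfε, he⟩ := fd_stable hδ hf
  have hinv : ∀ a : ℝ, |a| < ε → ∀ y ∈ fdV ρ x ε, ρ a y ∈ fdV ρ x ε := by
    intro a ha y hy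
    have hle : (fdV ρ x ε).map (ρ a) ≤ fdV ρ x (2 * ε) := by
      rw [fdV, Submodule.map_span]
      refine Submodule.span_mono ?_
      rintro _ ⟨_, ⟨t, ht, rfl⟩, rfl⟩
      refine ⟨a + t, ?_, O.add a t x⟩
      have h1 : |t| < ε := ht
      have h2 := abs_add_le a t
      show |a + t| < 2 * ε
      linarith
    rw [← he]
    exact hle (Submodule.mem_map_of_mem (he ▸ hy))
  have hx : x ∈ fdV ρ x ε :=
    Submodule.subset_span ⟨0, by simpa using hε, O.zero x⟩
  have hn : ∀ a : ℝ, |a| < ε → ∀ n : ℕ, ρ (n * a) x ∈ fdV ρ x ε := by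
    intro a ha n
    induction n with
    | zero =>
      rw [Nat.cast_zero, zero_mul, O.zero]
      exact hx
    | succ n ih =>
      have e : ((n + 1 : ℕ) : ℝ) * a = a + n * a := by
        push_cast
        ring
      rw [e, O.add]
      exact hinv a ha _ ih
  have hall : ∀ t : ℝ, ρ t x ∈ fdV ρ x ε := by
    intro t
    obtain ⟨n, hn'⟩ := exists_nat_gt (|t| / ε)
    have hn0 : (0 : ℝ) < n := lt_of_le_of_lt (div_nonneg (abs_nonneg t) hε.le) hn'
    have ha : |t / n| < ε := by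
      rw [abs_div, abs_of_pos hn0, div_lt_iff₀ hn0]
      rw [div_lt_iff₀ hε] at hn'
      linarith
    have e : (n : ℝ) * (t / n) = t := by field_simp
    have := hn _ ha n
    rwa [e] at this
  have hle : sp ρ x ≤ fdV ρ x ε := by
    refine Submodule.span_le.2 ?_
    rintro _ ⟨t, rfl⟩
    exact hall t
  exact Submodule.finiteDimensional_of_le hle

end Vale.Agent.P352R.Ct
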