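import Vale.Agent.P352.GFDefs

namespace Vale.Agent.P352R.P

open Vale.Agent.P352.GF

/-- The Bose fields form a vector space of countable dimension, and the dilate of a Bose field is a
Bose field. -/
def Cnt {D : Type*} [NormedAddCommGroup D] [InnerProductSpace ℂ D] (Q : Theory D) : Prop :=
  (∃ S : Set (Fld D), S.Countable ∧ ∀ B, Q.bose B ↔ B ∈ Submodule.span ℂ S) ∧
    ∀ s B, 0 < s → Q.bose B → ∃ C, Q.bose C ∧ ∀ f v, IsTest f →
      Q.U s one 0 (B (fun x => f (sim s one 0 x)) v) = C f (Q.U s one 0 v)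

end Vale.Agent.P352R.P
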