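import Vale.Agent.P352R.Ct.App0
import Vale.Agent.P352R.Ct.Fd
import Vale.Agent.P352R.Ct.Ep1
import Vale.Agent.P352R.Ct.Pub
import Vale.Agent.P352X.CL.BZ

/-!
# P352R, block Ct: finite scaling laws in spaces of fields of countable dimension (helper72)
-/

set_option autoImplicit false
set_option linter.all false

open Filter Topology

noncomputable section

namespace Vale.Agent.P352R.Ct

open Vale.Agent.P352 Vale.Agent.P352.GF Vale.Agent.P352.H15 Vale.Agent.P352.H746
open Vale.Agent.P352.H246 Vale.Agent.P352.H496 Vale.Agent.P352X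

variable {D : Type*} [NormedAddCommGroup D] [InnerProductSpace ℂ D] {Q : Theory D}
  {A : (V → V) → D → D} {B : Fld D}

theorem crv_dil : Crv Real.exp (fun _ => GF.one) (fun _ => 0) 0 1 0 :=
  ⟨Real.exp_zero, rfl, rfl, Real.exp_pos, fun _ => H496.isLor_one,
    by simpa using Real.hasDerivAt_exp 0, fun _ _ => hasDerivAt_const _ _,
    fun _ => hasDerivAt_const _ _⟩

theorem one_one : GF.one = fun m => sim 1 GF.one 0 (GF.one m) := by
  funext m n
  simp [sim, GF.one, bas]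

/-- **a field whose dilates lie in a space of fields of countable dimension has a finite scaling
law** -/
theorem app (R : Rep Q A) (K : Submodule ℂ (Fld D)) (S : Set (Fld D)) (hS : S.Countable)
    (le : K ≤ Submodule.span ℂ S) (hK : ∀ C ∈ K, Q.fld C ∧ (Q.bose B → Q.bose C)) (hB : Q.fld B)
    (dil : ∀ s, 0 < s → ∃ C ∈ K, ∀ f v, GF.IsTest f →
      Q.U s GF.one 0 (B (fun x => f (sim s GF.one 0 x)) v) = C f (Q.U s GF.one 0 v))
    (sep : ∀ C ∈ K, (∀ f, GF.IsTest f → C f Q.vac = 0) → ∀ f v, GF.IsTest f → C f v = 0) :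
    ∃ F C, Scl Q B F C := by
  have O := orb R crv_dil (fun t t' => ⟨Real.exp_add t t', one_one⟩) hB
  choose E e1 e2 using fun t => dil _ (Real.exp_pos t)
  have e3 := fun t => ac_rs (Real.exp_pos t) H496.isLor_one (e2 t)
  obtain ⟨F, c, c1, c2⟩ := ep_all _ _ _ _ O (fd _ _ _ _ (rs Q '' S) O (hS.image _) fun t => by
    rw [e3, ← Submodule.map_span]
    exact Submodule.mem_map_of_mem (le (e1 t)))
  have : sp (fun t => ac Q (crv_dil.sp t) (crv_dil.lor t)) (rs Q B) ≤ K.map (rs Q) :=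
    Submodule.span_le.2 (by rintro _ ⟨t, rfl⟩; exact ⟨E t, e1 t, (e3 t).symm⟩)
  choose C k1 k2 using fun p => this (c1 p)
  have e4 (t : ℝ) (f v) (hf : GF.IsTest f) :
      E t f v = ∑ p ∈ F, (Complex.exp (t * p.1) * (t : ℂ) ^ p.2) • C p f v := by
    have := sep _ (K.sub_mem (e1 t) (K.sum_mem (t := F) fun p _ =>
      K.smul_mem (Complex.exp (t * p.1) * (t : ℂ) ^ p.2) (k1 p))) (fun g hg => by
        have := congrFun ((e3 t).symm.trans (c2 t)) ⟨g, hg⟩
        simp only [← k2, ← map_smul, ← map_sum] at this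
        exact sub_eq_zero.2 this) f v hf
    simpa only [Pi.sub_apply, Finset.sum_apply, Pi.smul_apply, sub_eq_zero] using this
  let i : ℂ × ℕ ≃ ℂ × ℕ := (Equiv.addLeft 4).prodCongr (Equiv.refl ℕ)
  refine ⟨F.map i.toEmbedding, fun p => (-1 : ℂ) ^ p.2 • C (i.symm p),
    fun p => hK _ (K.smul_mem _ (k1 _)), fun s f v hs hf => ?_⟩
  obtain ⟨t, rfl⟩ : ∃ t, Real.exp t = s := ⟨_, Real.exp_log hs⟩
  have O2 := fun v => R.mul _ _ 0 _ _ 0 v hs (Real.exp_pos (-t)) H496.isLor_one H496.isLor_one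
  have O3 := fun v => R.mul _ _ 0 _ _ 0 v (Real.exp_pos (-t)) hs H496.isLor_one H496.isLor_one
  have z : ∀ a, sim a GF.one 0 0 = 0 := fun a => funext fun n => by simp [sim]
  have u0 : ∀ v, Q.U 1 GF.one 0 v = v := fun v => by simpa using U_at0 (Q := Q) crv_dil v
  simp only [← one_one, z, ← Real.exp_add, add_neg_cancel, neg_add_cancel, Real.exp_zero,
    u0] at O2 O3
  have t1 := Ap.test_sim hs H496.isLor_one 0 hf
  have h := e2 (-t) _ (Q.U (Real.exp t) GF.one 0 v) t1
  simp only [sim_sim, ← one_one, ← Real.exp_add, add_neg_cancel, Real.exp_zero, O3] at h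
  rw [show (fun x => f (sim 1 GF.one 0 x)) = f from funext fun x => congrArg f (funext fun n => by
    simp [sim, GF.one, bas]), e4 _ _ _ t1] at h
  let u : D →ₗ[ℂ] D := ⟨⟨Q.U (Real.exp t) GF.one 0, U_add hs H496.isLor_one 0⟩,
    U_smul hs H496.isLor_one 0⟩
  rw [← O2 (B f _), h, Finset.sum_map]
  refine (map_sum u _ _).trans (Finset.sum_congr rfl fun p _ => ?_)
  simp only [Equiv.coe_toEmbedding, Equiv.symm_apply_apply]
  refine (map_smul u _ _).trans (Eq.trans ?_ (congrArg _ (map_smul u _ _)).symm)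
  rw [smul_smul, Real.log_exp, Complex.cpow_def_of_ne_zero (Complex.ofReal_ne_zero.2 hs.ne'),
    ← Complex.ofReal_log hs.le, Real.log_exp, Complex.ofReal_neg, neg_pow (t : ℂ)]
  congr 1
  show _ = Complex.exp (t * (4 - (4 + p.1))) * (t : ℂ) ^ p.2 * (-1) ^ p.2
  rw [show (t : ℂ) * (4 - (4 + p.1)) = -t * p.1 by ring]
  ring

/-- **row APP** -/
theorem cnt_scl (R : Rep Q A) (h : P.Cnt Q) (hB : Q.bose B) : ∃ F C, Scl Q B F C := by
  obtain ⟨⟨S, a, b⟩, c⟩ := h
  exact app R _ S a le_rfl (fun C k => ⟨Q.bose_fld _ ((b C).2 k), fun _ => (b C).2 k⟩)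
    (Q.bose_fld _ hB) (fun s hs => (c s B hs hB).imp fun C k => ⟨(b C).1 k.1, k.2⟩)
    fun C k h f v hf => FE.bz ((b C).2 k) h hf v

end Vale.Agent.P352R.Ct
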