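import Vale.Agent.P352R.Ct.App
import Vale.Agent.P352L.Gd.Pub

/-!
# P352R, block Ct: finite scaling laws, from the group law of the dilations only (helper72)
-/

set_option autoImplicit false
set_option linter.all false

open Filter Topology
open scoped SchwartzMap

noncomputable section

namespace Vale.Agent.P352R.Ct

open Vale.Agent.P352 Vale.Agent.P352.GF Vale.Agent.P352.H15 Vale.Agent.P352.H746
open Vale.Agent.P352.H246 Vale.Agent.P352.H496 Vale.Agent.P352X

variable {D : Type*} [NormedAddCommGroup D] [InnerProductSpace ℂ D] {Q : Theory D}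
  {A : (V → V) → D → D} {B : Fld D} {s : ℝ → ℝ} {L : ℝ → Ix → V} {w : Ix → V} {r : ℝ}

theorem cont2 (R : P352L.Gnr Q A) (K : Crv s L (fun _ => 0) w r 0) (hB : Q.fld B) (f) :
    Tendsto (fun e => ac Q (K.sp e) (K.lor e) (rs Q B) f) (𝓝 0) (𝓝 (rs Q B f)) := by
  obtain ⟨f, hf⟩ := f
  obtain ⟨F, rfl⟩ := exists_fl hf
  have h1 : Tendsto (K.cs F) (𝓝 0) (𝓝 F) := by
    rw [← nhdsNE_sup_pure, tendsto_sup]
    refine ⟨?_, by simpa only [K.cs_zero] using tendsto_pure_nhds (K.cs F) 0⟩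
    have := ((tendsto_id.mono_left (nhdsWithin_le_nhds (s := {0}ᶜ))).smul (K.tend F)).add_const F
    rw [zero_smul, zero_add] at this
    refine this.congr' (eventually_nhdsWithin_of_forall fun e he => ?_)
    rw [id, smul_inv_smul₀ he, sub_add_cancel]
  have h2 := (((fld_cont hB Q.vac).tendsto F).comp h1).sub_const (B (fl F) Q.vac)
  have h3 := (R s L _ _ (B (fl F) Q.vac) K.s0 K.L0 K.a0 (fun e => ⟨K.sp e, K.lor e⟩)
    fun n x => K.dX (fun _ _ => rfl) n x).continuousAt.tendsto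
  rw [U_at0 K] at h3
  rw [sub_self, tendsto_zero_iff_norm_tendsto_zero] at h2
  have h4 : Tendsto (fun e => Q.U (s e) (L e) 0 (B (fl (K.cs F e)) Q.vac - B (fl F) Q.vac))
      (𝓝 0) (𝓝 0) := tendsto_zero_iff_norm_tendsto_zero.2
    (h2.congr fun e => (U_nrm0 (K.sp e) (K.lor e) 0 _).symm)
  have h5 := h4.add h3
  rw [zero_add] at h5
  refine h5.congr fun e => ?_
  rw [H746.U_sub' (K.sp e) (K.lor e), sub_add_cancel, Crv.cs, ← fl_sim]
  rfl

/-- **the orbit of a field under a one parameter group** -/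
theorem orb2 (R : P352L.Gnr Q A) (K : Crv s L (fun _ => 0) w r 0) (ad : ∀ t t' ψ,
    ac Q (K.sp (t + t')) (K.lor (t + t')) ψ = ac Q (K.sp t) (K.lor t) (ac Q (K.sp t') (K.lor t') ψ))
    (hB : Q.fld B) :
    Orb (fun t => ac Q (K.sp t) (K.lor t)) (La D) (rs Q B) := by
  refine ⟨fun ψ => funext fun f => (U_at0 K _).trans (congrArg ψ (Subtype.ext (funext fun x => ?_))),
    ad, fun ψ h => funext fun f => ext_inner_left ℂ fun v => ?_, ?_⟩
  · refine congrArg f.1 (funext fun n => ?_)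
    simp [K.s0, K.L0, sim, GF.one, bas]
  · exact (h ((innerₛₗ ℂ v).comp (LinearMap.proj f)) ⟨v, f, fun _ => rfl⟩).trans
      (inner_zero_right _).symm
  rintro l ⟨v, f, e⟩
  simp only [e]
  refine continuous_const.inner (continuous_iff_continuousAt.2 fun t => ?_)
  let u : D →ₗᵢ[ℂ] D := ⟨⟨⟨Q.U (s t) (L t) 0, U_add (K.sp t) (K.lor t) 0⟩,
    U_smul (K.sp t) (K.lor t) 0⟩, U_nrm0 (K.sp t) (K.lor t) 0⟩
  have h := (u.continuous.tendsto _).comp ((cont2 R K hB ⟨_, Ap.test_sim (K.sp t) (K.lor t) 0 f.2⟩).comp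
    (show Tendsto (fun e => e - t) (𝓝 t) (𝓝 0) from tendsto_sub_nhds_zero_iff.2 tendsto_id))
  refine h.congr fun e => ?_
  have := congrFun (ad t (e - t) (rs Q B)) f
  simp only [add_sub_cancel] at this
  exact this.symm

/-- **a field whose dilates lie in a space of fields of countable dimension has a finite scaling
law** -/
theorem app2 (R : P352L.Gnr Q A) (dm : ∀ s s' v, 0 < s → 0 < s' →
      Q.U s GF.one 0 (Q.U s' GF.one 0 v) = Q.U (s * s') GF.one 0 v)
    (K : Submodule ℂ (Fld D)) (S : Set (Fld D)) (hS : S.Countable)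
    (le : K ≤ Submodule.span ℂ S) (hK : ∀ C ∈ K, Q.fld C ∧ (Q.bose B → Q.bose C)) (hB : Q.fld B)
    (dil : ∀ s, 0 < s → ∃ C ∈ K, ∀ f v, GF.IsTest f →
      Q.U s GF.one 0 (B (fun x => f (sim s GF.one 0 x)) v) = C f (Q.U s GF.one 0 v))
    (sep : ∀ C ∈ K, (∀ f, GF.IsTest f → C f Q.vac = 0) → ∀ f v, GF.IsTest f → C f v = 0) :
    ∃ F C, Scl Q B F C := by
  have O := orb2 R crv_dil (fun t t' ψ => funext fun f => by
    refine Eq.trans ?_ (dm _ _ _ (Real.exp_pos t) (Real.exp_pos t')).symm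
    simp only [sim_sim, ← one_one, ← Real.exp_add]
    rfl) hB
  choose E e1 e2 using fun t => dil _ (Real.exp_pos t)
  have e3 := fun t => ac_rs (Real.exp_pos t) H496.isLor_one (e2 t)
  obtain ⟨F, c, c1, c2⟩ := ep_all _ _ _ _ O (fd _ _ _ _ (rs Q '' S) O (hS.image _) fun t => by
    rw [e3, ← Submodule.map_span]
    exact Submodule.mem_map_of_mem (le (e1 t)))
  have : sp (fun t => ac Q (crv_dil.sp t) (crv_dil.lor t)) (rs Q B) ≤ K.map (rs Q) :=
    Submodule.span_le.2 (by rintro _ ⟨t, rfl⟩; exact ⟨E t, e1 t, (e3 t).symm⟩)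
  choose C k1 k2 using fun p => this (c1 p)
  have e4 (t : ℝ) (f v) (hf : GF.IsTest f) :
      E t f v = ∑ p ∈ F, (Complex.exp (t * p.1) * (t : ℂ) ^ p.2) • C p f v := by
    have := sep _ (K.sub_mem (e1 t) (K.sum_mem (t := F) fun p _ =>
      K.smul_mem (Complex.exp (t * p.1) * (t : ℂ) ^ p.2) (k1 p))) (fun g hg => by
        have := congrFun ((e3 t).symm.trans (c2 t)) ⟨g, hg⟩
        simp only [← k2, ← map_smul, ← map_sum] at this
        exact sub_eq_zero.2 this) f v hf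
    simpa only [Pi.sub_apply, Finset.sum_apply, Pi.smul_apply, sub_eq_zero] using this
  let i : ℂ × ℕ ≃ ℂ × ℕ := (Equiv.addLeft 4).prodCongr (Equiv.refl ℕ)
  refine ⟨F.map i.toEmbedding, fun p => (-1 : ℂ) ^ p.2 • C (i.symm p),
    fun p => hK _ (K.smul_mem _ (k1 _)), fun s f v hs hf => ?_⟩
  obtain ⟨t, rfl⟩ : ∃ t, Real.exp t = s := ⟨_, Real.exp_log hs⟩
  have O2 := fun v => dm _ _ v hs (Real.exp_pos (-t))
  have O3 := fun v => dm _ _ v (Real.exp_pos (-t)) hs
  have u0 : ∀ v, Q.U 1 GF.one 0 v = v := fun v => by simpa using U_at0 (Q := Q) crv_dil v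
  simp only [← Real.exp_add, add_neg_cancel, neg_add_cancel, Real.exp_zero, u0] at O2 O3
  have t1 := Ap.test_sim hs H496.isLor_one 0 hf
  have h := e2 (-t) _ (Q.U (Real.exp t) GF.one 0 v) t1
  simp only [sim_sim, ← one_one, ← Real.exp_add, add_neg_cancel, Real.exp_zero, O3] at h
  rw [show (fun x => f (sim 1 GF.one 0 x)) = f from funext fun x => congrArg f (funext fun n => by
    simp [sim, GF.one, bas]), e4 _ _ _ t1] at h
  let u : D →ₗ[ℂ] D := ⟨⟨Q.U (Real.exp t) GF.one 0, U_add hs H496.isLor_one 0⟩,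
    U_smul hs H496.isLor_one 0⟩
  rw [← O2 (B f _), h, Finset.sum_map]
  refine (map_sum u _ _).trans (Finset.sum_congr rfl fun p _ => ?_)
  simp only [Equiv.coe_toEmbedding, Equiv.symm_apply_apply]
  refine (map_smul u _ _).trans (Eq.trans ?_ (congrArg _ (map_smul u _ _)).symm)
  rw [smul_smul, Real.log_exp, Complex.cpow_def_of_ne_zero (Complex.ofReal_ne_zero.2 hs.ne'),
    ← Complex.ofReal_log hs.le, Real.log_exp, Complex.ofReal_neg, neg_pow (t : ℂ)]
  congr 1
  show _ = Complex.exp (t * (4 - (4 + p.1))) * (t : ℂ) ^ p.2 * (-1) ^ p.2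
  rw [show (t : ℂ) * (4 - (4 + p.1)) = -t * p.1 by ring]
  ring

end Vale.Agent.P352R.Ct
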