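import Mathlib

/-!
# P352R, block Ct: one parameter groups on spaces of countable dimension (rows)
-/

set_option autoImplicit false
set_option linter.all false

namespace Vale.Agent.P352R.Ct

variable {W : Type*} [AddCommGroup W] [Module ℂ W]

/-- a one parameter group with a weakly continuous orbit -/
structure Orb (ρ : ℝ → W →ₗ[ℂ] W) (Λ : Set (W →ₗ[ℂ] ℂ)) (x : W) : Prop where
  zero : ∀ y, ρ 0 y = y
  add : ∀ s t y, ρ (s + t) y = ρ s (ρ t y)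
  sep : ∀ y, (∀ l ∈ Λ, l y = 0) → y = 0
  cont : ∀ l ∈ Λ, Continuous fun t => l (ρ t x)

/-- the span of the orbit -/
abbrev sp (ρ : ℝ → W →ₗ[ℂ] W) (x : W) : Submodule ℂ W :=
  Submodule.span ℂ (Set.range fun t => ρ t x)

variable (W) in
/-- row FD (Baire) -/
def FD : Prop := ∀ (ρ : ℝ → W →ₗ[ℂ] W) Λ x (S : Set W), Orb ρ Λ x → S.Countable →
  (∀ t, ρ t x ∈ Submodule.span ℂ S) → FiniteDimensional ℂ (sp ρ x)

variable (W) in
/-- row EP (exponential polynomials) -/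
def EP : Prop := ∀ (ρ : ℝ → W →ₗ[ℂ] W) Λ x, Orb ρ Λ x → FiniteDimensional ℂ (sp ρ x) →
  ∃ (F : Finset (ℂ × ℕ)) (c : ℂ × ℕ → W), (∀ p, c p ∈ sp ρ x) ∧
    ∀ t : ℝ, ρ t x = ∑ p ∈ F, (Complex.exp (t * p.1) * (t : ℂ) ^ p.2) • c p

/-- row GEN: a continuous one parameter group of matrices is differentiable -/
def GEN : Prop := ∀ (n : ℕ) (M : ℝ → (Fin n → ℂ) →L[ℂ] (Fin n → ℂ)), M 0 = 1 →
  (∀ s t, M (s + t) = M s * M t) → Continuous M →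
  ∃ G : (Fin n → ℂ) →L[ℂ] (Fin n → ℂ), ∀ t, HasDerivAt M (M t * G) t

/-- row ODE: the orbits are exponential polynomials -/
def ODE : Prop := ∀ (n : ℕ) (M : ℝ → (Fin n → ℂ) →L[ℂ] (Fin n → ℂ))
  (G : (Fin n → ℂ) →L[ℂ] (Fin n → ℂ)), M 0 = 1 → (∀ t, HasDerivAt M (M t * G) t) → ∀ v,
  ∃ (F : Finset (ℂ × ℕ)) (c : ℂ × ℕ → Fin n → ℂ),
    ∀ t : ℝ, M t v = ∑ p ∈ F, (Complex.exp (t * p.1) * (t : ℂ) ^ p.2) • c p

end Vale.Agent.P352R.Ct
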