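import Vale.Agent.P352R.Ct.Df

/-!
# P352R, block Ct: finite dimensional orbits are exponential polynomials (helper14)
-/

set_option autoImplicit false
set_option linter.all false

namespace Vale.Agent.P352R.Ct

theorem ep (g : GEN) (o : ODE) (W : Type*) [AddCommGroup W] [Module ℂ W] : EP W := by
  intro ρ Λ x h fd
  have mem : ∀ t, ρ t x ∈ sp ρ x := fun t => Submodule.subset_span ⟨t, rfl⟩
  have inv : ∀ t, ∀ y ∈ sp ρ x, ρ t y ∈ sp ρ x := fun t y hy => by
    induction hy using Submodule.span_induction with
    | mem y hy => obtain ⟨s, rfl⟩ := hy; rw [← h.add]; exact mem _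
    | zero => rw [map_zero]; exact zero_mem _
    | add y z _ _ a b => rw [map_add]; exact add_mem a b
    | smul c y _ a => rw [map_smul]; exact Submodule.smul_mem _ c a
  have ct : ∀ l ∈ Λ, ∀ y ∈ sp ρ x, Continuous fun t => l (ρ t y) := fun l hl y hy => by
    induction hy using Submodule.span_induction with
    | mem y hy =>
      obtain ⟨s, rfl⟩ := hy
      simp only [← h.add]
      exact (h.cont l hl).comp (continuous_add_right s)
    | zero => simp only [map_zero]; exact continuous_const
    | add y z _ _ a b => simp only [map_add]; exact a.add b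
    | smul c y _ a => simp only [map_smul]; exact a.const_smul c
  let e := (Module.finBasis ℂ (sp ρ x)).equivFun
  let M := fun t => LinearMap.toContinuousLinearMap
    (e.toLinearMap ∘ₗ (ρ t).restrict (inv t) ∘ₗ e.symm.toLinearMap)
  have hM : ∀ t v, (e.symm (M t v) : W) = ρ t (e.symm v) := fun t v =>
    congrArg Subtype.val (e.symm_apply_apply _)
  have ex : ∀ {u v}, (e.symm u : W) = e.symm v → u = v := fun k =>
    e.symm.injective (Subtype.ext k)
  have m0 : M 0 = 1 := ContinuousLinearMap.ext fun v => ex (by rw [hM, h.zero]; rfl)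
  have ma : ∀ s t, M (s + t) = M s * M t := fun s t => ContinuousLinearMap.ext fun v =>
    ex (by rw [ContinuousLinearMap.mul_apply, hM, hM, hM, h.add])
  let J := LinearMap.pi fun l : Λ => l.1 ∘ₗ (sp ρ x).subtype ∘ₗ e.symm.toLinearMap
  have hJ : LinearMap.ker J = ⊥ := LinearMap.ker_eq_bot'.2 fun u k => ex (by
    rw [map_zero]; exact h.sep _ fun l hl => congrFun k ⟨l, hl⟩)
  have mc : Continuous M := continuous_clm_apply.2 fun v =>
    (LinearMap.isClosedEmbedding_of_injective hJ).isInducing.continuous_iff.2
      (continuous_pi fun l => (ct l.1 l.2 _ (e.symm v).2).congr fun t =>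
        congrArg l.1 (hM t v).symm)
  have x0 : x ∈ sp ρ x := by have := mem 0; rwa [h.zero] at this
  obtain ⟨G, hG⟩ := g _ M m0 ma mc
  obtain ⟨F, c, k⟩ := o _ M G m0 hG (e ⟨x, x0⟩)
  refine ⟨F, fun p => e.symm (c p), fun p => (e.symm (c p)).2, fun t => ?_⟩
  have := hM t (e ⟨x, x0⟩)
  rw [e.symm_apply_apply, k, map_sum, Submodule.coe_sum] at this
  refine this.symm.trans (Finset.sum_congr rfl fun p _ => ?_)
  rw [map_smul, Submodule.coe_smul]

end Vale.Agent.P352R.Ct
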