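import Vale.Agent.P352R.Ct.Df

/-!
# P352R, block Ct: row ODE
-/

set_option autoImplicit false
set_option linter.all false

namespace Vale.Agent.P352R.Ct

open Complex (exp)

namespace Od

variable {n : ℕ} {M : ℝ → (Fin n → ℂ) →L[ℂ] (Fin n → ℂ)} {G : (Fin n → ℂ) →L[ℂ] (Fin n → ℂ)}

theorem nil (h0 : M 0 = 1) (h : ∀ t, HasDerivAt M (M t * G) t) (l : ℂ) (k : ℕ) :
    ∀ v, (((G : Module.End ℂ (Fin n → ℂ)) - l • 1) ^ k) v = 0 → ∃ c : ℕ → Fin n → ℂ,
      ∀ t : ℝ, exp (-(t * l)) • M t v = ∑ j ∈ Finset.range k, (t : ℂ) ^ j • c j := by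
  induction k with
  | zero =>
    intro v hv
    have : v = 0 := by simpa using hv
    exact ⟨0, fun t => by simp [this]⟩
  | succ k ih =>
    intro v hv
    rw [pow_succ, Module.End.mul_apply] at hv
    obtain ⟨c, hc⟩ := ih _ hv
    have d1 : ∀ t : ℝ, HasDerivAt (fun t : ℝ => exp (-(t * l)) • M t v)
        (∑ j ∈ Finset.range k, (t : ℂ) ^ j • c j) t := fun t => by
      have a : HasDerivAt (fun t : ℝ => exp (-(t * l))) (exp (-(t * l)) * -(1 * l)) t :=
        ((Complex.ofRealCLM.hasDerivAt (x := t)).mul_const l).neg.cexp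
      have b : HasDerivAt (fun t => M t v) ((M t * G) v) t :=
        ((ContinuousLinearMap.apply ℂ (Fin n → ℂ) v).restrictScalars ℝ).hasFDerivAt.comp_hasDerivAt t
          (h t)
      refine (a.smul b).congr_deriv ?_
      rw [← hc]
      simp [smul_sub, smul_smul, sub_eq_add_neg]
    have d2 : ∀ t : ℝ, HasDerivAt
        (fun t : ℝ => ∑ j ∈ Finset.range k, (t : ℂ) ^ (j + 1) • (((j : ℂ) + 1)⁻¹ • c j))
        (∑ j ∈ Finset.range k, (t : ℂ) ^ j • c j) t := fun t => by
      refine HasDerivAt.fun_sum fun j _ => ?_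
      have a : HasDerivAt (fun t : ℝ => (t : ℂ) ^ (j + 1)) (((j + 1 : ℕ) : ℂ) * (t : ℂ) ^ j * 1) t :=
        (Complex.ofRealCLM.hasDerivAt (x := t)).fun_pow (j + 1)
      refine (a.smul_const _).congr_deriv ?_
      have : (j : ℂ) + 1 ≠ 0 := Nat.cast_add_one_ne_zero j
      rw [smul_smul]
      congr 1
      push_cast
      field_simp
    refine ⟨fun j => Nat.casesOn j v fun j => ((j : ℂ) + 1)⁻¹ • c j, fun t => ?_⟩
    have d3 := fun t => (d1 t).sub (d2 t)
    have := is_const_of_deriv_eq_zero (fun t => (d3 t).differentiableAt)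
      (fun t => by rw [(d3 t).deriv, sub_self]) t 0
    rw [Finset.sum_range_succ']
    simp only [Pi.sub_apply, h0] at this
    simpa [sub_eq_iff_eq_add'] using this

/-- the vectors whose orbit is an exponential polynomial -/
def S (M : ℝ → (Fin n → ℂ) →L[ℂ] (Fin n → ℂ)) : Submodule ℂ (Fin n → ℂ) where
  carrier := {v | ∃ c : (ℂ × ℕ) →₀ (Fin n → ℂ),
    ∀ t : ℝ, M t v = c.sum fun p w => (exp (t * p.1) * (t : ℂ) ^ p.2) • w}
  zero_mem' := ⟨0, fun t => by simp⟩
  add_mem' := by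
    rintro v w ⟨c, hc⟩ ⟨d, hd⟩
    exact ⟨c + d, fun t => by
      rw [map_add, hc, hd, Finsupp.sum_add_index' (fun _ => smul_zero _) fun _ _ _ => smul_add _ _ _]⟩
  smul_mem' := by
    rintro a v ⟨c, hc⟩
    exact ⟨a • c, fun t => by
      rw [map_smul, hc, Finsupp.sum_smul_index' (fun _ => smul_zero _), Finsupp.smul_sum]
      exact Finsupp.sum_congr fun p _ => smul_comm _ _ _⟩

end Od

theorem ode : ODE := by
  intro n M G h0 h v
  have key : (⊤ : Submodule ℂ (Fin n → ℂ)) ≤ Od.S M := by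
    rw [← Module.End.iSup_maxGenEigenspace_eq_top (G : Module.End ℂ (Fin n → ℂ))]
    refine iSup_le fun l w hw => ?_
    obtain ⟨k, hk⟩ := (Module.End.mem_maxGenEigenspace _ _ _).1 hw
    obtain ⟨c, hc⟩ := Od.nil h0 h l k w hk
    refine ⟨∑ j ∈ Finset.range k, Finsupp.single (l, j) (c j), fun t => ?_⟩
    rw [← Finsupp.sum_finsetSum_index (fun _ => smul_zero _) fun _ _ _ => smul_add _ _ _]
    have e : M t w = exp (t * l) • (exp (-(t * l)) • M t w) := by
      rw [smul_smul, ← Complex.exp_add, add_neg_cancel, Complex.exp_zero, one_smul]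
    rw [e, hc, Finset.smul_sum]
    refine Finset.sum_congr rfl fun j _ => ?_
    rw [smul_smul]
    exact (Finsupp.sum_single_index (a := (l, j)) (b := c j) (h := fun (p : ℂ × ℕ) (w : Fin n → ℂ) =>
      (exp (t * p.1) * (t : ℂ) ^ p.2) • w) (smul_zero _)).symm
  obtain ⟨c, hc⟩ := key (Submodule.mem_top (x := v))
  exact ⟨c.support, c, hc⟩

end Vale.Agent.P352R.Ct
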