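import Vale.Agent.P352R.Fin
import Vale.Agent.P352R.Ct.Pub

/-!
# P352R, block Ct: the witness has countably many fields (helper22)
-/

set_option autoImplicit false
set_option linter.all false

noncomputable section

namespace Vale.Agent.P352R

open P352 GF H246 H15 BW P352X P352W
open P352L.StA (hull sp_of sp_ind)
open UniformSpace (Completion)

variable {E : Type*} [NormedAddCommGroup E] [InnerProductSpace ℂ E]

variable {Ω : E} {φ : Fld E} {T : Ix → Ix → Fld E} {U : ℝ → (Ix → V) → V → E → E}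
  {F : Fld E → Prop}

theorem fp_cnt : {B | FP B}.Countable := by
  refine (((Set.countable_singleton Ph).union (Set.countable_range fun p : Ix × Ix =>
    Tm p.1 p.2)).union (Set.countable_range fun p : (n : ℕ) × (k : ℕ) × (Fin k → Fin n) ×
      (Fin k → Ix) => Mo p.2.2.1 p.2.2.2)).mono ?_
  rintro B (rfl | ⟨m, n, rfl⟩ | ⟨n, k, π, μ, rfl⟩)
  exacts [.inl (.inl rfl), .inl (.inr ⟨(m, n), rfl⟩), .inr ⟨⟨n, k, π, μ⟩, rfl⟩]

namespace Fr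

variable (h : Fr Ω φ T U F)

theorem cvq {s : ℝ} {L : Ix → V} (hs : 0 < s) (hL : IsLor L) (a : V) {B : Fld E}
    (hB : h.tq.fld B) : ∃ C, h.tq.fld C ∧ ∀ f v, IsTest f →
      U s L a (B (fun x => f (sim s L a x)) v) = C f (U s L a v) := by
  obtain ⟨A, hA⟩ := h.rep
  refine sp_ind (p := Gl2.Cv h.th s L a) hB (fun B b => ?_) ⟨0, zero_mem _, fun f v _ => ?_⟩
    fun B C x ⟨B', b, b'⟩ ⟨C', c, c'⟩ =>
      ⟨B' + x • C', add_mem b (Submodule.smul_mem _ _ c), fun f v hf => ?_⟩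
  · obtain ⟨k, d, Φ, μ, t, p, rfl⟩ := h.ten' B b
    exact Gl2.cv hA hs hL a t p μ
  · exact map_zero (ueI h.th hs hL a)
  · rw [← ueI_apply hs hL, map_add, map_smul, ueI_apply, ueI_apply, b' f v hf, c' f v hf]
    rfl

theorem cnt (c : {B | F B}.Countable) : P.Cnt h.tq :=
  ⟨⟨_, c, fun _ => Iff.rfl⟩, fun s B hs hB => h.cvq hs isLor_one 0 hB⟩

open P in
/-- **all hypotheses**, for the given theory -/
theorem topQ (r : L.Rec h.tq) : ∃ (A : (V → V) → E → E)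
    (N : Set V → VonNeumannAlgebra (Completion E)), (P.Stress0 h.tq T ∧ P.PCh h.tq T A ∧
      (P.TfGen h.tq ∨ MfA h.tq) ∧ P.FSL h.tq ∧ P.LNm h.tq A N ∧ P.UVac h.tq ∧ P.Rec h.tq) ∧
      P.TfGen h.tq ∧ MfA h.tq ∧ (P.Sect h.tq h.tq .id ∧ P.Gr h.tq id ∧ Gnr h.tq A) ∧
      (∃ φ, h.tq.IsScalar φ 1 ∧ ∃ f, IsTest f ∧ φ f h.tq.vac ≠ 0) ∧
      ¬FiniteDimensional ℂ (Completion E) ∧ ∃ f, IsTest f ∧ tr T f h.tq.vac ≠ 0 := by
  obtain ⟨A, hA⟩ := h.rep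
  obtain ⟨N, hN⟩ := Net.lnm hA h.scalar h.raw h.fil
  obtain ⟨v, n, p⟩ := h.perp hA
  have s := P352H.str (h.stress hA)
  have t : BW.TfGen h.tq := P352L.StA.tfg h.tf
  have l := P352L.StA.lnm hN
  refine ⟨A, N, ⟨⟨s.bose, s.symm, s.herm, fun m n L a f v => s.cov m n 1 L a f v one_pos,
    s.conserved, s.charge⟩, P352H.pch hA h.pT (h.pch hA), .inl t, P352H.fsl h.fsl,
    Br.lnm.2 l, h.uvac, Br.frec.2 r⟩, t, Br.mfa.2 (P352H.mfa h.mf),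
    ⟨Br.sect.2 (Gl2.sect hA fun s L a B hs hL hB => ?_),
      Br.gr.2 (Gl2.gr l.toRep (fun _ b => b) (zero_mem _)), hA.der⟩,
    ⟨φ, ⟨sp_of h.pφ, h.scalar.2⟩, h.nzp⟩, nz_dim hA h.uvac n p, h.nz⟩
  obtain ⟨k, d, Φ, μ, t, p, rfl⟩ := h.ten' B hB
  exact Gl2.cv hA hs hL a t p μ

end Fr

open P in
/-- **the witness**, with countably many fields -/
theorem witnessC : ∃ (E : Type) (_ : NormedAddCommGroup E) (_ : InnerProductSpace ℂ E)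
    (Q : Theory E) (T : Ix → Ix → Fld E) (A : (V → V) → E → E)
    (N : Set V → VonNeumannAlgebra (Completion E)), ((P.Stress0 Q T ∧ P.PCh Q T A ∧
      (P.TfGen Q ∨ MfA Q) ∧ P.FSL Q ∧ P.LNm Q A N ∧ P.UVac Q ∧ P.Rec Q) ∧ P.TfGen Q ∧ MfA Q ∧
      (P.Sect Q Q .id ∧ P.Gr Q id ∧ Gnr Q A) ∧
      (∃ φ, Q.IsScalar φ 1 ∧ ∃ f, IsTest f ∧ φ f Q.vac ≠ 0) ∧
      ¬FiniteDimensional ℂ (Completion E) ∧ ∃ f, IsTest f ∧ tr T f Q.vac ≠ 0) ∧ P.Cnt Q :=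
  have ⟨A, N, k⟩ := fr.topQ rec_fr
  ⟨D, _, _, fr.tq, Tm, A, N, k, fr.cnt fp_cnt⟩

end Vale.Agent.P352R
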